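import Mathlib

namespace Vale.Agent.Results.P194.AbelianCoset

open MonoidAlgebra

variable {K G : Type*} [CommRing K] [Group G]

/-- the additive submonoid of the elements of `K[G]` supported on the subgroup `A` -/
noncomputable def supportedOn (A : Subgroup G) : AddSubmonoid (MonoidAlgebra K G) :=
  AddSubmonoid.closure {x | ∃ g ∈ A, ∃ r : K, x = single g r}

open Classical in
/-- projection of `K[G]` onto the coefficients at elements of `A` -/
noncomputable def proj (A : Subgroup G) : MonoidAlgebra K G →+ MonoidAlgebra K G where
  toFun x := ofCoeff (x.coeff.filter (· ∈ A))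
  map_zero' := by ext; simp [Finsupp.filter_apply]
  map_add' x y := by ext; simp [Finsupp.filter_apply]

theorem proj_single_mem (A : Subgroup G) {g : G} (hg : g ∈ A) (r : K) :
    proj A (single g r) = single g r := by
  classical
  ext h
  simp only [proj, AddMonoidHom.coe_mk, ZeroHom.coe_mk, coeff_ofCoeff, Finsupp.filter_apply]
  by_cases hh : h ∈ A
  · simp [hh]
  · have : g ≠ h := by rintro rfl; exact hh hg
    simp [hh, coeff_single, this]

theorem proj_single_not_mem (A : Subgroup G) {g : G} (hg : g ∉ A) (r : K) :
    proj A (single g r) = 0 := by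
  classical
  ext h
  simp only [proj, AddMonoidHom.coe_mk, ZeroHom.coe_mk, coeff_ofCoeff, Finsupp.filter_apply]
  by_cases hh : h ∈ A
  · have : g ≠ h := by rintro rfl; exact hg hh
    simp [hh, coeff_single, this]
  · simp [hh]

theorem proj_mem (A : Subgroup G) (y : MonoidAlgebra K G) : proj A y ∈ supportedOn (K := K) A := by
  induction y using MonoidAlgebra.induction_linear with
  | zero => rw [map_zero]; exact AddSubmonoid.zero_mem _
  | add x y hx hy => rw [map_add]; exact AddSubmonoid.add_mem _ hx hy
  | single g r =>
    by_cases hg : g ∈ A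
    · rw [proj_single_mem A hg]; exact AddSubmonoid.subset_closure ⟨g, hg, r, rfl⟩
    · rw [proj_single_not_mem A hg]; exact AddSubmonoid.zero_mem _

theorem proj_mul (A : Subgroup G) {x : MonoidAlgebra K G} (hx : x ∈ supportedOn (K := K) A)
    (y : MonoidAlgebra K G) : proj A (x * y) = x * proj A y := by
  induction hx using AddSubmonoid.closure_induction with
  | mem x hx =>
    obtain ⟨g, hg, r, rfl⟩ := hx
    induction y using MonoidAlgebra.induction_linear with
    | zero => simp
    | add u v hu hv => rw [mul_add, map_add, map_add, mul_add, hu, hv]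
    | single h s =>
      rw [single_mul_single]
      by_cases hh : h ∈ A
      · rw [proj_single_mem A (A.mul_mem hg hh), proj_single_mem A hh, single_mul_single]
      · have : g * h ∉ A := fun hgh => hh ((Subgroup.mul_mem_cancel_left A hg).mp hgh)
        rw [proj_single_not_mem A this, proj_single_not_mem A hh, mul_zero]
  | zero => simp
  | add u v _ _ hu hv => rw [add_mul, map_add, hu, hv, add_mul]

theorem commute_of_mem (A : Subgroup G) (hA : ∀ g ∈ A, ∀ h ∈ A, g * h = h * g)
    {x y : MonoidAlgebra K G} (hx : x ∈ supportedOn (K := K) A)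
    (hy : y ∈ supportedOn (K := K) A) : x * y = y * x := by
  induction hx using AddSubmonoid.closure_induction with
  | mem x hx =>
    obtain ⟨g, hg, r, rfl⟩ := hx
    induction hy using AddSubmonoid.closure_induction with
    | mem y hy =>
      obtain ⟨h, hh, s, rfl⟩ := hy
      rw [single_mul_single, single_mul_single, hA g hg h hh, mul_comm r s]
    | zero => simp
    | add u v _ _ hu hv => rw [mul_add, add_mul, hu, hv]
  | zero => simp
  | add u v _ _ hu hv => rw [add_mul, mul_add, hu, hv]

/-- the case of support inside the subgroup itself -/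
theorem key (A : Subgroup G) (hA : ∀ g ∈ A, ∀ h ∈ A, g * h = h * g)
    (a b : MonoidAlgebra K G) (ha : a ∈ supportedOn (K := K) A) (hab : a * b = 1) :
    b * a = 1 := by
  have h1 : proj A (1 : MonoidAlgebra K G) = 1 := by
    rw [one_def]; exact proj_single_mem A A.one_mem 1
  have h2 : a * proj A b = 1 := by rw [← proj_mul A ha, hab, h1]
  have h3 : proj A b * a = 1 := by rw [← commute_of_mem A hA ha (proj_mem A b)]; exact h2
  have h4 : b = proj A b := by
    calc b = 1 * b := (one_mul b).symm
      _ = proj A b * a * b := by rw [h3]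
      _ = proj A b * (a * b) := mul_assoc _ _ _
      _ = proj A b := by rw [hab, mul_one]
  rw [h4]; exact h3

/-- Direct finiteness for elements supported in one coset of an abelian subgroup: let `K` be a
field (any commutative ring works), `G` any group, `A` a subgroup whose elements commute with
each other and `g₀ ∈ G`. If `a b = 1` in `K[G]` and every group element in the support of `a`
lies in the coset `g₀ A`, then `b a = 1`. -/
theorem result {K G : Type*} [Field K] [Group G] (A : Subgroup G)
    (hA : ∀ g ∈ A, ∀ h ∈ A, g * h = h * g) (g₀ : G) (a b : MonoidAlgebra K G)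
    (hsupp : ∀ g, a.coeff g ≠ 0 → g₀⁻¹ * g ∈ A) (hab : a * b = 1) : b * a = 1 := by
  set a' : MonoidAlgebra K G := single g₀⁻¹ 1 * a with ha'
  set b' : MonoidAlgebra K G := b * single g₀ 1 with hb'
  have hunit1 : (single g₀⁻¹ (1 : K) : MonoidAlgebra K G) * single g₀ 1 = 1 := by
    rw [single_mul_single, inv_mul_cancel, mul_one, one_def]
  have hunit2 : (single g₀ (1 : K) : MonoidAlgebra K G) * single g₀⁻¹ 1 = 1 := by
    rw [single_mul_single, mul_inv_cancel, mul_one, one_def]
  have hmem : a' ∈ supportedOn (K := K) A := by
    have hsum : a = a.coeff.sum single := (sum_coeff_single a).symm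
    rw [ha', hsum, Finsupp.sum, Finset.mul_sum]
    refine AddSubmonoid.sum_mem _ ?_
    intro g hg
    rw [single_mul_single, one_mul]
    exact AddSubmonoid.subset_closure
      ⟨g₀⁻¹ * g, hsupp g (Finsupp.mem_support_iff.mp hg), a.coeff g, rfl⟩
  have hab' : a' * b' = 1 := by
    calc a' * b' = single g₀⁻¹ 1 * (a * b) * single g₀ 1 := by
          rw [ha', hb']; simp only [mul_assoc]
      _ = 1 := by rw [hab, mul_one, hunit1]
  have hba' : b' * a' = 1 := key A hA a' b' hmem hab'
  calc b * a = b * (single g₀ 1 * single g₀⁻¹ 1) * a := by rw [hunit2, mul_one]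
    _ = b' * a' := by rw [ha', hb']; simp only [mul_assoc]
    _ = 1 := hba'

end Vale.Agent.Results.P194.AbelianCoset
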